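import Mathlib
import Vale.Agent.Lib.P101.Transfer
import Vale.Agent.Lib.P101.TransferB

/-!
# P101: the Kirchberg-Rordam character question

Let `A` be a nonzero unital separable C*-algebra, `ω` a free ultrafilter on `ℕ`, `A_ω` the norm
ultrapower (given by the quotient map `q` from the bounded sequences; it exists and is unique up to
isomorphism) and `F_ω(A)` the central sequence algebra.
(1) If `F_ω(A)` has no characters, then `A` is isomorphic to `A ⊗ Z` for every `Z` having the
properties of the Jiang-Su algebra proved by Jiang and Su (inductive limit of prime dimension drop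
algebras, approximately inner half flip).
(2) `F_ω(A)` has no characters if and only if for every `n` there is a unital *-homomorphism from
the dimension drop algebra `I(n, n+1)` to `F_ω(A)`.
-/

open scoped Topology TensorProduct BoundedContinuousFunction

namespace Vale.Agent.Results.P101.Absorption

universe u

theorem result (ω : Ultrafilter ℕ) (hω : (ω : Filter ℕ) ≤ Filter.cofinite)
    (A : Type u) [CStarAlgebra A] [Nontrivial A] [TopologicalSpace.SeparableSpace A] :
    (∃ (U : Type u) (_ : CStarAlgebra U) (q : (ℕ →ᵇ A) →⋆ₐ[ℂ] U),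
      _root_.P101.IsUltrapowerMap ω q) ∧
    ∀ (U : Type u) [CStarAlgebra U] (q : (ℕ →ᵇ A) →⋆ₐ[ℂ] U), _root_.P101.IsUltrapowerMap ω q →
      (_root_.P101.NoCharacters q → _root_.P101.AbsorbsJiangSu A) ∧
      (_root_.P101.NoCharacters q ↔ ∀ n : ℕ, 1 ≤ n → _root_.P101.HasDimDropHom q n (n + 1)) := by
  refine ⟨⟨_root_.P101.Ultrapower ω A, inferInstance, _root_.P101.ultraMap ω A,
    _root_.P101.isUltrapowerMap_ultraMap ω A⟩, fun U _ q hq => ⟨fun h Z B _ _ hZ hB => ?_, ?_⟩⟩
  · exact _root_.P101.jiangSu_absorption ω hω ((_root_.P101.isEmpty_characters_iff hq).1 h.isEmpty)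
      ⟨hZ.separable, _root_.P101.isLimit_of_dimDropLimit hZ.limit,
        _root_.P101.approxInnerHalfFlip_of hZ.flip⟩
      (_root_.P101.isCStarTensorProduct_of_tensor hB)
  · constructor
    · intro h n hn
      exact ⟨(_root_.P101.nonempty_hom_iff hq n (n + 1)).2 ((_root_.P101.main_iff ω hω A).1
        ((_root_.P101.isEmpty_characters_iff hq).1 h.isEmpty) n hn)⟩
    · intro h
      exact ⟨(_root_.P101.isEmpty_characters_iff hq).2 ((_root_.P101.main_iff ω hω A).2
        fun n hn => (_root_.P101.nonempty_hom_iff hq n (n + 1)).1 (h n hn).nonempty)⟩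

end Vale.Agent.Results.P101.Absorption
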