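import Mathlib
import Vale.Agent.Lib.P101C.Converse

/-!
# P101: absence of characters characterizes `Z`-stability

Let `A` be a nonzero unital separable C*-algebra, `ω` a free ultrafilter on `ℕ`, `Z` the Jiang-Su
algebra and `B` the minimal tensor product of `A` and `Z`.  Then `F_ω(A)` has no characters if and
only if `A ≅ B`, i.e. if and only if `A` is `Z`-stable.
-/

open scoped TensorProduct BoundedContinuousFunction

namespace Vale.Agent.Results.P101.CharactersIff

universe u

theorem result (A Z B : Type u) [CStarAlgebra A] [CStarAlgebra Z] [CStarAlgebra B] [Nontrivial A]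
    [TopologicalSpace.SeparableSpace A] (ω : Ultrafilter ℕ) (hω : (ω : Filter ℕ) ≤ Filter.cofinite)
    (hZ : P101C.IsJiangSu Z) (m : A ⊗[ℂ] Z →⋆ₐ[ℂ] B) (hm : P101C.IsMinTensor m) :
    (¬ ∃ χ : (ℕ →ᵇ A) → ℂ, P101C.IsCharacter ω χ) ↔ Nonempty (A ≃⋆ₐ[ℂ] B) := by
  refine ⟨fun h => ?_, fun ⟨e⟩ => P101C.noCharacters_of ω hω hZ m hm e⟩
  exact _root_.P101.jiangSu_absorption ω hω ((P101C.noCharacters_iff ω).1 h)
    ⟨hZ.separable, P101C.isLimit_of hZ.limit,
      P101C.approxInnerHalfFlip hZ.nuclear hZ.selfAbsorbing⟩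
    (_root_.P101.isCStarTensorProduct_of_tensor ⟨m, hm.injective, hm.dense⟩)

end Vale.Agent.Results.P101.CharactersIff
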