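import Mathlib
import Vale.Agent.Lib.P101B.Flip

/-!
# P101: the Kirchberg-Rordam character question, in spatial form

Let `A` be a nonzero unital separable C*-algebra and `ω` a free ultrafilter on `ℕ`.
(1) If `F_ω(A)` has no characters then `A ≅ A ⊗ Z`, where `Z` is the Jiang-Su algebra and `A ⊗ Z`
is the spatial tensor product (operators on the Hilbert space tensor product of any two faithful
representations).
(2) `F_ω(A)` has no characters if and only if for all coprime `p, q ≥ 1` there is a unital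
*-homomorphism `I(p, q) → F_ω(A)`.
-/

open scoped TensorProduct BoundedContinuousFunction

namespace Vale.Agent.Results.P101.SpatialForm

universe u

theorem result (A : Type u) [CStarAlgebra A] [Nontrivial A] [TopologicalSpace.SeparableSpace A]
    (ω : Ultrafilter ℕ) (hω : ∀ n : ℕ, ω ≠ pure n) :
    ((¬ ∃ χ : (ℕ →ᵇ A) → ℂ, P101B.IsCharacter ω χ) →
      ∀ (Z : Type u) [CStarAlgebra Z], P101B.IsJiangSu Z → P101B.IsoTensor A A Z) ∧
    ((¬ ∃ χ : (ℕ →ᵇ A) → ℂ, P101B.IsCharacter ω χ) ↔
      ∀ p q : ℕ, 1 ≤ p → 1 ≤ q → Nat.Coprime p q →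
        ∃ φ : (unitInterval → Matrix (Fin p × Fin q) (Fin p × Fin q) ℂ) → (ℕ →ᵇ A),
          P101B.IsCentralHom ω p q φ) := by
  have hω' : (ω : Filter ℕ) ≤ Filter.cofinite := by
    rcases ω.le_cofinite_or_eq_pure with h | ⟨n, h⟩
    · exact h
    · exact absurd h (hω n)
  refine ⟨fun h Z _ hZ H K E _ _ _ _ _ _ _ _ _ τ π ρ hτ hπ hρ => ?_,
    fun h p q hp hq hpq => ?_, fun h => ?_⟩
  · exact P101B.isoSpatial_of hτ hπ.hom hρ.hom
      (_root_.P101.jiangSu_absorption ω hω' (P101B.noCharacters_iff.1 h)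
      ⟨hZ.separable, P101B.isLimit_of hZ.limit,
        P101B.approxInnerHalfFlip hZ.nuclear hZ.halfFlip hρ⟩
      (_root_.P101.isCStarTensorProduct_of_tensor (B := P101B.spAlg hτ hπ.hom hρ.hom)
        ⟨P101B.spatialMap hτ hπ.hom hρ.hom,
          P101B.spatialMap_injective hτ hπ.hom hρ.hom hπ.injective hρ.injective,
          P101B.denseRange_spatialMap hτ hπ.hom hρ.hom⟩))
  · rw [P101B.exists_centralHom_iff]
    obtain ⟨n, hn, ⟨f⟩⟩ := _root_.P101.exists_dimDrop_hom_coprime hp hq hpq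
    obtain ⟨g⟩ := (_root_.P101.main_iff ω hω' A).1 (P101B.noCharacters_iff.1 h) n hn
    exact ⟨g.comp f⟩
  · exact P101B.noCharacters_iff.2 ((_root_.P101.main_iff ω hω' A).2 fun n hn =>
      (P101B.exists_centralHom_iff n (n + 1)).1 (h n (n + 1) hn (by omega)
        (by simp)))

end Vale.Agent.Results.P101.SpatialForm
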